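import Mathlib

/-!
Near-perfect matchings versus perfect matchings in graphs of bounded independence number.

A matching of a graph on `V` is encoded by the involution `f : V → V` sending a covered vertex to
its partner and fixing the uncovered vertices (the holes).  If the independence number of `G` is at
most `k` and `G` has a perfect matching, then a shortest augmenting path for a near-perfect matching
has fewer than `2 (k + 1) (2 k + 1)` vertices, and the number of near-perfect matchings is at most
`(2 n + 1) ^ ((k + 1) (2 k + 1)) * n` times the number of perfect matchings.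
-/

set_option linter.unusedSectionVars false
set_option linter.unusedSimpArgs false

namespace Vale.Agent.Results.P308.BoundedIndependence

open Finset

variable {V : Type*} [Fintype V] [DecidableEq V]

/-- `f` is the involution of a matching of `G`: `f` is an involution and every vertex moved by `f`
is adjacent to its image. The fixed points are the uncovered vertices. -/
def IsMatchingInv (G : SimpleGraph V) (f : V → V) : Prop :=
  (∀ v, f (f v) = v) ∧ ∀ v, f v ≠ v → G.Adj v (f v)

/-- The uncovered vertices of the matching encoded by `f`. -/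
def holes (f : V → V) : Finset V := univ.filter fun v => f v = v

open Classical in
/-- All perfect matchings of `G` (as involutions without fixed points). -/
noncomputable def perfectMatchings (G : SimpleGraph V) : Finset (V → V) :=
  univ.filter fun f => IsMatchingInv G f ∧ holes f = ∅

open Classical in
/-- All near-perfect matchings of `G`: matchings leaving exactly two vertices uncovered. -/
noncomputable def nearPerfectMatchings (G : SimpleGraph V) : Finset (V → V) :=
  univ.filter fun f => IsMatchingInv G f ∧ (holes f).card = 2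

/-- Rotation: match the hole `h` with `t`; the old partner of `t` becomes a hole. -/
def rot (f : V → V) (h t : V) : V → V := fun x =>
  if x = h then t else if x = t then h else if x = f t then x else f x

section rotation

variable {G : SimpleGraph V} {f : V → V} {h t : V}

lemma rot_isMatching (hf : IsMatchingInv G f) (hh : f h = h) (ht : f t ≠ t) (ha : G.Adj h t) :
    IsMatchingInv G (rot f h t) := by
  have hne : h ≠ t := ha.ne
  have hinv := hf.1
  have h1 : f t ≠ h := by
    intro e
    have := hinv t
    rw [e, hh] at this
    exact hne this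
  constructor
  · intro x
    by_cases hx1 : x = h
    · subst hx1
      simp [rot, hne.symm]
    by_cases hx2 : x = t
    · subst hx2
      simp [rot, hne.symm]
    by_cases hx3 : x = f t
    · simp [rot, hx1, hx2, hx3, h1, ht]
    have a1 : f x ≠ h := by
      intro e
      have := hinv x
      rw [e, hh] at this
      exact hx1 this.symm
    have a2 : f x ≠ t := by
      intro e
      have := hinv x
      rw [e] at this
      exact hx3 this.symm
    have a3 : f x ≠ f t := by
      intro e
      have := congrArg f e
      rw [hinv, hinv] at this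
      exact hx2 this
    simp [rot, hx1, hx2, hx3, a1, a2, a3, hinv]
  · intro x hx
    by_cases hx1 : x = h
    · subst hx1
      simpa [rot] using ha
    by_cases hx2 : x = t
    · subst hx2
      simpa [rot, hne.symm] using ha.symm
    by_cases hx3 : x = f t
    · exfalso
      apply hx
      simp [rot, hx1, hx2, hx3, h1, ht]
    have : rot f h t x = f x := by simp [rot, hx1, hx2, hx3]
    rw [this] at hx ⊢
    exact hf.2 x hx

lemma holes_rot (hf : IsMatchingInv G f) (hh : f h = h) (ht : f t ≠ t) (ha : G.Adj h t) :
    holes (rot f h t) = insert (f t) ((holes f).erase h) := by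
  have hne : h ≠ t := ha.ne
  have hinv := hf.1
  have h1 : f t ≠ h := by
    intro e
    have := hinv t
    rw [e, hh] at this
    exact hne this
  ext x
  simp only [holes, mem_filter, mem_univ, true_and, mem_insert, mem_erase]
  by_cases hx1 : x = h
  · subst hx1
    simp [rot, hne.symm, h1.symm]
  by_cases hx2 : x = t
  · subst hx2
    simp [rot, hne, hx1, ht.symm, ht]
  by_cases hx3 : x = f t
  · simp [rot, hx1, hx2, hx3, h1, ht]
  simp [rot, hx1, hx2, hx3]

lemma rot_mem_nearPerfect (hf : f ∈ nearPerfectMatchings G) (hh : f h = h) (ht : f t ≠ t)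
    (ha : G.Adj h t) : rot f h t ∈ nearPerfectMatchings G := by
  classical
  simp only [nearPerfectMatchings, mem_filter, mem_univ, true_and] at hf ⊢
  refine ⟨rot_isMatching hf.1 hh ht ha, ?_⟩
  rw [holes_rot hf.1 hh ht ha, card_insert_of_notMem, card_erase_of_mem, hf.2]
  · simp [holes, hh]
  · simp only [mem_erase, holes, mem_filter, mem_univ, true_and, not_and]
    intro _ e
    rw [hf.1.1] at e
    exact ht e.symm

lemma rot_rot (hf : IsMatchingInv G f) (hh : f h = h) (ht : f t ≠ t) (ha : G.Adj h t) :
    rot (rot f h t) (f t) (rot f h t h) = f := by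
  have hne : h ≠ t := ha.ne
  have hinv := hf.1
  have h1 : f t ≠ h := by
    intro e
    have := hinv t
    rw [e, hh] at this
    exact hne this
  have e0 : rot f h t h = t := by simp [rot]
  have e1 : rot f h t t = h := by simp [rot, hne.symm]
  rw [e0]
  funext x
  by_cases hx3 : x = f t
  · simp [rot, hx3, hinv]
  by_cases hx2 : x = t
  · subst hx2
    simp [rot, hx3, hne.symm]
  by_cases hx1 : x = h
  · subst hx1
    simp [rot, hx3, hx2, hh]
  simp [rot, hx1, hx2, hx3, hne.symm]

end rotation

/-- Adding the edge between two holes. -/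
def join (f : V → V) (p q : V) : V → V := fun x => if x = p then q else if x = q then p else f x

/-- Removing the edge at `p` of a matching. -/
def unjoin (f : V → V) (p : V) : V → V := fun x => if x = p then p else if x = f p then x else f x

lemma card_rotate_le {G : SimpleGraph V} {A B : Finset (V → V)}
    (hB : B ⊆ nearPerfectMatchings G)
    (hA : ∀ f ∈ A, IsMatchingInv G f ∧ ∃ h t, f h = h ∧ f t ≠ t ∧ G.Adj h t ∧ rot f h t ∈ B) :
    A.card ≤ B.card * (2 * Fintype.card V) := by
  classical
  let nb : (V → V) → Finset (V → V) := fun f' =>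
    (holes f' ×ˢ (univ : Finset V)).image fun q => rot f' q.1 (f' q.2)
  have hcover : A ⊆ B.biUnion nb := by
    intro f hf
    obtain ⟨hm, h, t, hh, ht, ha, hB'⟩ := hA f hf
    refine mem_biUnion.mpr ⟨rot f h t, hB', ?_⟩
    refine mem_image.mpr ⟨(f t, h), ?_, rot_rot hm hh ht ha⟩
    refine mem_product.mpr ⟨?_, mem_univ _⟩
    rw [holes_rot hm hh ht ha]
    exact mem_insert_self _ _
  have hnb : ∀ f' ∈ B, (nb f').card ≤ 2 * Fintype.card V := by
    intro f' hf'
    have h2 : (holes f').card = 2 := by
      have := hB hf'
      simp only [nearPerfectMatchings, mem_filter, mem_univ, true_and] at this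
      exact this.2
    calc (nb f').card ≤ (holes f' ×ˢ (univ : Finset V)).card := card_image_le
      _ = 2 * Fintype.card V := by rw [card_product, h2, card_univ]
  exact (card_le_card hcover).trans (card_biUnion_le_card_mul _ _ _ hnb)

lemma card_base_le {G : SimpleGraph V} {A : Finset (V → V)}
    (hA : ∀ f ∈ A, f ∈ nearPerfectMatchings G ∧ ∃ p q, f p = p ∧ f q = q ∧ G.Adj p q) :
    A.card ≤ (perfectMatchings G).card * Fintype.card V := by
  classical
  let nb : (V → V) → Finset (V → V) := fun f' => (univ : Finset V).image fun p => unjoin f' p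
  have hcover : A ⊆ (perfectMatchings G).biUnion nb := by
    intro f hf
    obtain ⟨hnp, p, q, hp, hq, ha⟩ := hA f hf
    simp only [nearPerfectMatchings, mem_filter, mem_univ, true_and] at hnp
    obtain ⟨hm, hc⟩ := hnp
    have hne : p ≠ q := ha.ne
    have hinv := hm.1
    have hholes : ∀ x, f x = x → x = p ∨ x = q := by
      intro x hx
      have hsub : ({p, q} : Finset V) ⊆ holes f := by
        intro y hy
        simp only [mem_insert, mem_singleton] at hy
        rcases hy with rfl | rfl <;> simp [holes, hp, hq]
      have heq : ({p, q} : Finset V) = holes f :=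
        eq_of_subset_of_card_le hsub (by rw [hc, card_pair hne])
      have : x ∈ holes f := by simp [holes, hx]
      rw [← heq] at this
      simpa using this
    refine mem_biUnion.mpr ⟨join f p q, ?_, ?_⟩
    · simp only [perfectMatchings, mem_filter, mem_univ, true_and]
      constructor
      · constructor
        · intro x
          by_cases hx1 : x = p
          · subst hx1
            simp [join, hne.symm]
          by_cases hx2 : x = q
          · subst hx2
            simp [join, hne.symm]
          have a1 : f x ≠ p := by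
            intro e
            have := hinv x
            rw [e, hp] at this
            exact hx1 this.symm
          have a2 : f x ≠ q := by
            intro e
            have := hinv x
            rw [e, hq] at this
            exact hx2 this.symm
          simp [join, hx1, hx2, a1, a2, hinv]
        · intro x hx
          by_cases hx1 : x = p
          · subst hx1
            simpa [join] using ha
          by_cases hx2 : x = q
          · subst hx2
            simpa [join, hne.symm] using ha.symm
          have : join f p q x = f x := by simp [join, hx1, hx2]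
          rw [this] at hx ⊢
          exact hm.2 x hx
      · ext x
        simp only [holes, mem_filter, mem_univ, true_and, notMem_empty, iff_false]
        by_cases hx1 : x = p
        · subst hx1
          simpa [join] using hne.symm
        by_cases hx2 : x = q
        · subst hx2
          simpa [join, hne.symm] using hne
        have : join f p q x = f x := by simp [join, hx1, hx2]
        rw [this]
        intro e
        rcases hholes x e with h | h
        · exact hx1 h
        · exact hx2 h
    · refine mem_image.mpr ⟨p, mem_univ _, ?_⟩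
      funext x
      have e0 : join f p q p = q := by simp [join]
      by_cases hx1 : x = p
      · subst hx1
        simp [unjoin, hp]
      by_cases hx2 : x = q
      · subst hx2
        simp [unjoin, join, hx1, hq]
      simp [unjoin, join, hx1, hx2]
  have hnb : ∀ f' ∈ perfectMatchings G, (nb f').card ≤ Fintype.card V := by
    intro f' _
    calc (nb f').card ≤ (univ : Finset V).card := card_image_le
      _ = Fintype.card V := card_univ
  exact (card_le_card hcover).trans (card_biUnion_le_card_mul _ _ _ hnb)

/-- The master count: a rank on near-perfect matchings that a rotation can lower. -/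
lemma master {G : SimpleGraph V} (rank : (V → V) → ℕ) (R : ℕ)
    (h0 : ∀ f ∈ nearPerfectMatchings G, rank f = 0 → ∃ p q, f p = p ∧ f q = q ∧ G.Adj p q)
    (hs : ∀ f ∈ nearPerfectMatchings G, ∀ r, rank f = r + 1 →
      ∃ h t, f h = h ∧ f t ≠ t ∧ G.Adj h t ∧ rank (rot f h t) ≤ r)
    (hR : ∀ f ∈ nearPerfectMatchings G, rank f ≤ R) :
    (nearPerfectMatchings G).card ≤
      (2 * Fintype.card V + 1) ^ R * Fintype.card V * (perfectMatchings G).card := by
  classical
  let B : ℕ → Finset (V → V) := fun r => (nearPerfectMatchings G).filter fun f => rank f ≤ r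
  have hB : ∀ r, (B r).card ≤
      (2 * Fintype.card V + 1) ^ r * Fintype.card V * (perfectMatchings G).card := by
    intro r
    induction r with
    | zero =>
      have := card_base_le (G := G) (A := B 0) (by
        intro f hf
        have hf' := mem_filter.mp hf
        exact ⟨hf'.1, h0 f hf'.1 (by omega)⟩)
      rw [pow_zero, one_mul, mul_comm]
      exact this
    | succ r ih =>
      let A := (nearPerfectMatchings G).filter fun f => rank f = r + 1
      have hsub : B (r + 1) ⊆ B r ∪ A := by
        intro f hf
        have hf' := mem_filter.mp hf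
        by_cases hr : rank f ≤ r
        · exact mem_union_left _ (mem_filter.mpr ⟨hf'.1, hr⟩)
        · exact mem_union_right _ (mem_filter.mpr ⟨hf'.1, by omega⟩)
      have hA : A.card ≤ (B r).card * (2 * Fintype.card V) := by
        apply card_rotate_le (G := G) (filter_subset _ _)
        intro f hf
        have hf' := mem_filter.mp hf
        have hm : IsMatchingInv G f := by
          have := hf'.1
          simp only [nearPerfectMatchings, mem_filter, mem_univ, true_and] at this
          exact this.1
        obtain ⟨h, t, hh, ht, ha, hle⟩ := hs f hf'.1 r hf'.2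
        exact ⟨hm, h, t, hh, ht, ha, mem_filter.mpr ⟨rot_mem_nearPerfect hf'.1 hh ht ha, hle⟩⟩
      calc (B (r + 1)).card ≤ (B r ∪ A).card := card_le_card hsub
        _ ≤ (B r).card + A.card := card_union_le _ _
        _ ≤ (B r).card + (B r).card * (2 * Fintype.card V) := by omega
        _ = (2 * Fintype.card V + 1) * (B r).card := by ring
        _ ≤ (2 * Fintype.card V + 1) *
            ((2 * Fintype.card V + 1) ^ r * Fintype.card V * (perfectMatchings G).card) :=
          Nat.mul_le_mul_left _ ih
        _ = _ := by ring
  have : B R = nearPerfectMatchings G := by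
    apply filter_true_of_mem
    exact hR
  rw [← this]
  exact hB R

/-- An augmenting path for `f` with `2 * l + 2` vertices: `p 0, ..., p (2 * l + 1)` are distinct, the
two ends are holes, the edges `p (2 * i) p (2 * i + 1)` are edges of `G` and
`p (2 * i + 1) p (2 * i + 2)` are matched by `f`. -/
structure IsAug (G : SimpleGraph V) (f : V → V) (l : ℕ) (p : ℕ → V) : Prop where
  inj : ∀ i j, i ≤ 2 * l + 1 → j ≤ 2 * l + 1 → p i = p j → i = j
  start : f (p 0) = p 0
  stop : f (p (2 * l + 1)) = p (2 * l + 1)
  adj : ∀ i, i ≤ l → G.Adj (p (2 * i)) (p (2 * i + 1))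
  mat : ∀ i, i < l → f (p (2 * i + 1)) = p (2 * i + 2)

/-- The alternating sequence from `u` for two involutions. -/
def altSeq (f g : V → V) (u : V) : ℕ → V
  | 0 => u
  | n + 1 => if n % 2 = 0 then g (altSeq f g u n) else f (altSeq f g u n)

lemma altSeq_odd (f g : V → V) (u : V) (i : ℕ) :
    altSeq f g u (2 * i + 1) = g (altSeq f g u (2 * i)) := by
  rw [altSeq]
  simp

lemma altSeq_even (f g : V → V) (u : V) (i : ℕ) :
    altSeq f g u (2 * i + 2) = f (altSeq f g u (2 * i + 1)) := by
  rw [altSeq]
  have : (2 * i + 1) % 2 = 1 := by omega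
  simp [this]

/-- A perfect matching `g` yields an augmenting path for any matching `f` with a hole `u`. -/
lemma exists_aug {G : SimpleGraph V} {f g : V → V} (hf : IsMatchingInv G f)
    (hg : IsMatchingInv G g) (hgp : ∀ v, g v ≠ v) {u : V} (hu : f u = u) :
    ∃ l p, IsAug G f l p := by
  classical
  set q := altSeq f g u with hq
  have hex : ∃ s, ∃ j, j < s ∧ q j = q s := by
    obtain ⟨x, y, hne, he⟩ := Finite.exists_ne_map_eq_of_infinite q
    rcases lt_or_gt_of_ne hne with h | h
    · exact ⟨y, x, h, he⟩
    · exact ⟨x, y, h, he.symm⟩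
  obtain ⟨s, ⟨j, hjs, hjq⟩, hmin⟩ : ∃ s, (∃ j, j < s ∧ q j = q s) ∧
      ∀ m, m < s → ¬ ∃ j, j < m ∧ q j = q m :=
    ⟨Nat.find hex, Nat.find_spec hex, fun m hm => Nat.find_min hex hm⟩
  obtain ⟨t, rfl⟩ : ∃ t, s = t + 1 := ⟨s - 1, by omega⟩
  have hinj : ∀ a b, a ≤ t → b ≤ t → q a = q b → a = b := by
    intro a b ha hb hab
    by_contra hne
    rcases lt_or_gt_of_ne hne with h | h
    · exact hmin b (by omega) ⟨a, h, hab⟩
    · exact hmin a (by omega) ⟨b, h, hab.symm⟩
  have hq0 : q 0 = u := rfl
  have hodd : ∀ i, q (2 * i + 1) = g (q (2 * i)) := altSeq_odd f g u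
  have heven : ∀ i, q (2 * i + 2) = f (q (2 * i + 1)) := altSeq_even f g u
  have hginv := hg.1
  have hfinv := hf.1
  rcases Nat.even_or_odd' t with ⟨i, rfl | rfl⟩
  · -- `t` even: the next vertex is `g (q t)`; impossible
    exfalso
    have hnext : g (q (2 * i)) = q j := by rw [← hodd, hjq]
    have hback : g (q j) = q (2 * i) := by rw [← hnext, hginv]
    rcases Nat.even_or_odd' j with ⟨m, rfl | rfl⟩
    · by_cases hm : 2 * m = 2 * i
      · rw [hm] at hback
        exact hgp _ hback
      · have : q (2 * m + 1) = q (2 * i) := by rw [hodd, hback]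
        have := hinj _ _ (by omega) (by omega) this
        omega
    · have : q (2 * m) = q (2 * i) := by
        rw [← hback, hodd, hginv]
      have := hinj _ _ (by omega) (by omega) this
      omega
  · -- `t` odd
    have hnext : f (q (2 * i + 1)) = q j := by rw [← heven, hjq]
    by_cases hj : j = 2 * i + 1
    · subst hj
      refine ⟨i, q, ⟨hinj, by rw [hq0]; exact hu, hnext, ?_, ?_⟩⟩
      · intro m _
        rw [hodd]
        exact hg.2 _ (hgp _)
      · intro m _
        rw [heven]
    · exfalso
      have hback : f (q j) = q (2 * i + 1) := by rw [← hnext, hfinv]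
      rcases Nat.even_or_odd' j with ⟨m, rfl | rfl⟩
      · rcases m with _ | m
        · have : q (2 * i + 1) = q 0 := by
            rw [← hback]
            simpa [hq0] using hu
          have := hinj _ _ (by omega) (by omega) this
          omega
        · have e : q (2 * (m + 1)) = f (q (2 * m + 1)) := heven m
          have : q (2 * m + 1) = q (2 * i + 1) := by
            rw [← hback, e, hfinv]
          have := hinj _ _ (by omega) (by omega) this
          omega
      · have : q (2 * m + 2) = q (2 * i + 1) := by rw [heven, hback]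
        have := hinj _ _ (by omega) (by omega) this
        omega

/-- The shortcut: two chords, one between even positions and one between odd positions, in this
interleaved position, give a shorter augmenting path. -/
lemma shortcut {G : SimpleGraph V} {f : V → V} (hf : ∀ v, f (f v) = v) {l : ℕ} {p : ℕ → V}
    (h : IsAug G f l p) {a b c d : ℕ} (hab : a < b) (hac : a ≤ c) (hcb : c < b) (hbd : b ≤ d)
    (hdl : d ≤ l) (hE : G.Adj (p (2 * a)) (p (2 * b))) (hO : G.Adj (p (2 * c + 1)) (p (2 * d + 1)))
    (hs : a < c ∨ b < d) : ∃ l' p', l' < l ∧ IsAug G f l' p' := by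
  set δ := (c - a) + (d - b) with hδ
  let φ : ℕ → ℕ := fun i =>
    if i ≤ 2 * a then i else if i ≤ 2 * a + 2 * b - 2 * c then 2 * a + 2 * b + 1 - i else i + 2 * δ
  have hφ1 : ∀ i, i ≤ 2 * a → φ i = i := fun i hi => by simp [φ, hi]
  have hφ2 : ∀ i, 2 * a < i → i ≤ 2 * a + 2 * b - 2 * c → φ i = 2 * a + 2 * b + 1 - i := by
    intro i h1 h2
    have h3 : ¬ i ≤ 2 * a := by omega
    simp [φ, h3, h2]
  have hφ3 : ∀ i, 2 * a + 2 * b - 2 * c < i → φ i = i + 2 * δ := by
    intro i h1
    have h3 : ¬ i ≤ 2 * a := by omega
    have h4 : ¬ i ≤ 2 * a + 2 * b - 2 * c := by omega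
    simp [φ, h3, h4]
  refine ⟨l - δ, fun i => p (φ i), by omega, ?_⟩
  refine ⟨?_, ?_, ?_, ?_, ?_⟩
  · intro i j hi hj he
    have hbound : ∀ x, x ≤ 2 * (l - δ) + 1 → φ x ≤ 2 * l + 1 := by
      intro x hx
      simp only [φ]
      split_ifs <;> omega
    have := h.inj _ _ (hbound i hi) (hbound j hj) he
    simp only [φ] at this
    split_ifs at this <;> omega
  · show f (p (φ 0)) = p (φ 0)
    rw [hφ1 0 (by omega)]
    exact h.start
  · show f (p (φ (2 * (l - δ) + 1))) = p (φ (2 * (l - δ) + 1))
    rw [hφ3 _ (by omega)]
    have e : 2 * (l - δ) + 1 + 2 * δ = 2 * l + 1 := by omega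
    rw [e]
    exact h.stop
  · intro i hi
    show G.Adj (p (φ (2 * i))) (p (φ (2 * i + 1)))
    by_cases c1 : 2 * i + 1 ≤ 2 * a
    · rw [hφ1 _ (by omega), hφ1 _ c1]
      exact h.adj i (by omega)
    by_cases c2 : i = a
    · subst c2
      rw [hφ1 _ (by omega), hφ2 _ (by omega) (by omega)]
      have e : 2 * i + 2 * b + 1 - (2 * i + 1) = 2 * b := by omega
      rw [e]
      exact hE
    by_cases c3 : 2 * i + 1 ≤ 2 * a + 2 * b - 2 * c
    · rw [hφ2 _ (by omega) (by omega), hφ2 _ (by omega) c3]
      have e1 : 2 * a + 2 * b + 1 - 2 * i = 2 * (a + b - i) + 1 := by omega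
      have e2 : 2 * a + 2 * b + 1 - (2 * i + 1) = 2 * (a + b - i) := by omega
      rw [e1, e2]
      exact (h.adj (a + b - i) (by omega)).symm
    by_cases c4 : 2 * i = 2 * a + 2 * b - 2 * c
    · rw [hφ2 _ (by omega) (by omega), hφ3 _ (by omega)]
      have e1 : 2 * a + 2 * b + 1 - 2 * i = 2 * c + 1 := by omega
      have e2 : 2 * i + 1 + 2 * δ = 2 * d + 1 := by omega
      rw [e1, e2]
      exact hO
    · rw [hφ3 _ (by omega), hφ3 _ (by omega)]
      have e1 : 2 * i + 2 * δ = 2 * (i + δ) := by omega
      have e2 : 2 * i + 1 + 2 * δ = 2 * (i + δ) + 1 := by omega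
      rw [e1, e2]
      exact h.adj _ (by omega)
  · intro i hi
    show f (p (φ (2 * i + 1))) = p (φ (2 * i + 2))
    by_cases c1 : 2 * i + 2 ≤ 2 * a
    · rw [hφ1 _ (by omega), hφ1 _ c1]
      exact h.mat i (by omega)
    by_cases c3 : 2 * i + 2 ≤ 2 * a + 2 * b - 2 * c
    · rw [hφ2 _ (by omega) (by omega), hφ2 _ (by omega) c3]
      have e1 : 2 * a + 2 * b + 1 - (2 * i + 1) = 2 * (a + b - i - 1) + 2 := by omega
      have e2 : 2 * a + 2 * b + 1 - (2 * i + 2) = 2 * (a + b - i - 1) + 1 := by omega
      rw [e1, e2, ← h.mat (a + b - i - 1) (by omega), hf]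
    · rw [hφ3 _ (by omega), hφ3 _ (by omega)]
      have e1 : 2 * i + 1 + 2 * δ = 2 * (i + δ) + 1 := by omega
      have e2 : 2 * i + 2 + 2 * δ = 2 * (i + δ) + 2 := by omega
      rw [e1, e2]
      exact h.mat _ (by omega)

/-- A rotation at the start of an augmenting path shortens it. -/
lemma rot_aug {G : SimpleGraph V} {f : V → V} (hf : ∀ v, f (f v) = v) {l : ℕ} {p : ℕ → V}
    (h : IsAug G f (l + 1) p) : IsAug G (rot f (p 0) (p 1)) l (fun i => p (i + 2)) := by
  have h2 : f (p 1) = p 2 := h.mat 0 (by omega)
  have hrot : ∀ j, 3 ≤ j → j ≤ 2 * (l + 1) + 1 → rot f (p 0) (p 1) (p j) = f (p j) := by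
    intro j h3 hj
    have a0 : p j ≠ p 0 := fun e => by
      have := h.inj _ _ hj (by omega) e
      omega
    have a1 : p j ≠ p 1 := fun e => by
      have := h.inj _ _ hj (by omega) e
      omega
    have a2 : p j ≠ f (p 1) := fun e => by
      rw [h2] at e
      have := h.inj _ _ hj (by omega) e
      omega
    simp [rot, a0, a1, a2]
  refine ⟨?_, ?_, ?_, ?_, ?_⟩
  · intro i j hi hj he
    have := h.inj _ _ (by omega) (by omega) he
    omega
  · show rot f (p 0) (p 1) (p 2) = p 2
    have a0 : p 2 ≠ p 0 := fun e => by
      have := h.inj _ _ (by omega) (by omega) e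
      omega
    have a1 : p 2 ≠ p 1 := fun e => by
      have := h.inj _ _ (by omega) (by omega) e
      omega
    simp [rot, a0, a1, h2]
  · show rot f (p 0) (p 1) (p (2 * l + 1 + 2)) = p (2 * l + 1 + 2)
    rw [hrot _ (by omega) (by omega)]
    exact h.stop
  · intro i hi
    show G.Adj (p (2 * i + 2)) (p (2 * i + 1 + 2))
    exact h.adj (i + 1) (by omega)
  · intro i hi
    show rot f (p 0) (p 1) (p (2 * i + 1 + 2)) = p (2 * i + 2 + 2)
    rw [hrot _ (by omega) (by omega)]
    exact h.mat (i + 1) (by omega)

/-- Among the `k + 1` even positions `s, s + 2, ..., s + 2 k` there is a chord. -/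
lemma window {G : SimpleGraph V} {f : V → V} {k l : ℕ} {p : ℕ → V} (h : IsAug G f l p)
    (hα : ∀ S : Finset V, G.IsIndepSet (S : Set V) → S.card ≤ k) {s : ℕ} (hs : s + 2 * k ≤ l) :
    ∃ a b, s ≤ a ∧ a + 2 ≤ b ∧ b ≤ s + 2 * k ∧ G.Adj (p (2 * a)) (p (2 * b)) := by
  classical
  by_contra hcon
  push Not at hcon
  let x : ℕ → V := fun i => p (2 * (s + 2 * i))
  have hx : ∀ i j, i ≤ k → j ≤ k → x i = x j → i = j := by
    intro i j hi hj he
    have := h.inj _ _ (by omega) (by omega) he
    omega
  have hcard : ((range (k + 1)).image x).card = k + 1 := by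
    rw [card_image_of_injOn, card_range]
    intro i hi j hj he
    simp only [coe_range, Set.mem_Iio] at hi hj
    exact hx i j (by omega) (by omega) he
  have hind : G.IsIndepSet (((range (k + 1)).image x : Finset V) : Set V) := by
    intro y hy z hz hne hadj
    simp only [coe_image, coe_range, Set.mem_image, Set.mem_Iio] at hy hz
    obtain ⟨i, hi, rfl⟩ := hy
    obtain ⟨j, hj, rfl⟩ := hz
    have hij : i ≠ j := fun e => hne (by rw [e])
    rcases lt_or_gt_of_ne hij with hlt | hlt
    · exact hcon (s + 2 * i) (s + 2 * j) (by omega) (by omega) (by omega) hadj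
    · exact hcon (s + 2 * j) (s + 2 * i) (by omega) (by omega) (by omega) hadj.symm
  have := hα _ hind
  omega

/-- A shortest augmenting path is short when the independence number is at most `k`. -/
lemma aug_length_bound {G : SimpleGraph V} {f : V → V} (hf : ∀ v, f (f v) = v) {k l : ℕ}
    {p : ℕ → V} (h : IsAug G f l p) (hmin : ∀ l' p', IsAug G f l' p' → l ≤ l')
    (hα : ∀ S : Finset V, G.IsIndepSet (S : Set V) → S.card ≤ k) :
    l + 1 < (k + 1) * (2 * k + 1) := by
  classical
  by_contra hcon
  push Not at hcon
  have hmono : ∀ j, j ≤ k → j * (2 * k + 1) + 2 * k ≤ l := by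
    intro j hj
    have h1 : j * (2 * k + 1) ≤ k * (2 * k + 1) := Nat.mul_le_mul_right _ hj
    have h2 : (k + 1) * (2 * k + 1) = k * (2 * k + 1) + (2 * k + 1) := by ring
    omega
  have hw : ∀ j, j ≤ k → ∃ a b, j * (2 * k + 1) ≤ a ∧ a + 2 ≤ b ∧
      b ≤ j * (2 * k + 1) + 2 * k ∧ G.Adj (p (2 * a)) (p (2 * b)) :=
    fun j hj => window h hα (hmono j hj)
  choose! a b ha hb hb' hadj using hw
  have hlt : ∀ i j, i < j → j ≤ k → b i ≤ a j := by
    intro i j hij hj
    have h1 := hb' i (by omega)
    have h2 := ha j hj
    have h3 : (i + 1) * (2 * k + 1) ≤ j * (2 * k + 1) := Nat.mul_le_mul_right _ hij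
    have h4 : (i + 1) * (2 * k + 1) = i * (2 * k + 1) + (2 * k + 1) := by ring
    omega
  let x : ℕ → V := fun j => p (2 * (a j + 1) + 1)
  have hl : ∀ j, j ≤ k → b j ≤ l := fun j hj => (hb' j hj).trans (hmono j hj)
  have hx : ∀ i j, i < j → j ≤ k → x i ≠ x j := by
    intro i j hij hj he
    have h1 := hlt i j hij hj
    have h2 := hb i (by omega)
    have h3 := hb j hj
    have h4 := hl j hj
    have := h.inj _ _ (by omega) (by omega) he
    omega
  have hcard : ((range (k + 1)).image x).card = k + 1 := by
    rw [card_image_of_injOn, card_range]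
    intro i hi j hj he
    simp only [coe_range, Set.mem_Iio] at hi hj
    by_contra hne
    rcases lt_or_gt_of_ne hne with hlt' | hlt'
    · exact hx i j hlt' (by omega) he
    · exact hx j i hlt' (by omega) he.symm
  have hnoadj : ∀ i j, i < j → j ≤ k → ¬ G.Adj (x i) (x j) := by
    intro i j hij hj hA
    have h1 := hlt i j hij hj
    have h2 := hb i (by omega)
    have h3 := hb j hj
    have h4 := hl j hj
    obtain ⟨l', p', hl', hp'⟩ := shortcut hf h (a := a i) (b := b i) (c := a i + 1) (d := a j + 1)
      (by omega) (by omega) (by omega) (by omega) (by omega) (hadj i (by omega)) hA (Or.inl (by omega))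
    have := hmin l' p' hp'
    omega
  have hind : G.IsIndepSet (((range (k + 1)).image x : Finset V) : Set V) := by
    intro y hy z hz hne hA
    simp only [coe_image, coe_range, Set.mem_image, Set.mem_Iio] at hy hz
    obtain ⟨i, hi, rfl⟩ := hy
    obtain ⟨j, hj, rfl⟩ := hz
    have hij : i ≠ j := fun e => hne (by rw [e])
    rcases lt_or_gt_of_ne hij with hlt' | hlt'
    · exact hnoadj i j hlt' (by omega) hA
    · exact hnoadj j i hlt' (by omega) hA.symm
  have := hα _ hind
  omega

/-- Bounded independence number. -/
theorem independence_bound (G : SimpleGraph V) (k : ℕ)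
    (hα : ∀ S : Finset V, G.IsIndepSet (S : Set V) → S.card ≤ k)
    (hZ : (perfectMatchings G).Nonempty) :
    (nearPerfectMatchings G).card ≤
      (2 * Fintype.card V + 1) ^ ((k + 1) * (2 * k + 1)) * Fintype.card V *
        (perfectMatchings G).card := by
  classical
  obtain ⟨g, hg⟩ := hZ
  simp only [perfectMatchings, mem_filter, mem_univ, true_and] at hg
  have hgp : ∀ v, g v ≠ v := by
    intro v hv
    have : v ∈ holes g := by simp [holes, hv]
    rw [hg.2] at this
    simp at this
  let rank : (V → V) → ℕ := fun f => sInf {l | ∃ p, IsAug G f l p}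
  have hmat : ∀ f ∈ nearPerfectMatchings G, IsMatchingInv G f := by
    intro f hf
    simp only [nearPerfectMatchings, mem_filter, mem_univ, true_and] at hf
    exact hf.1
  have hne : ∀ f ∈ nearPerfectMatchings G, {l | ∃ p, IsAug G f l p}.Nonempty := by
    intro f hf
    have hf' := hf
    simp only [nearPerfectMatchings, mem_filter, mem_univ, true_and] at hf'
    have : (holes f).Nonempty := by
      rw [← card_pos]
      omega
    obtain ⟨u, hu⟩ := this
    have hu' : f u = u := by simpa [holes] using hu
    obtain ⟨l, p, hp⟩ := exists_aug hf'.1 hg.1 hgp hu'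
    exact ⟨l, p, hp⟩
  have hrank : ∀ f ∈ nearPerfectMatchings G, ∃ p, IsAug G f (rank f) p ∧
      ∀ l' p', IsAug G f l' p' → rank f ≤ l' := by
    intro f hf
    obtain ⟨p, hp⟩ := Nat.sInf_mem (hne f hf)
    exact ⟨p, hp, fun l' p' h' => Nat.sInf_le ⟨p', h'⟩⟩
  apply master rank
  · intro f hf h0
    obtain ⟨p, hp, -⟩ := hrank f hf
    rw [h0] at hp
    refine ⟨p 0, p 1, hp.start, hp.stop, ?_⟩
    exact hp.adj 0 (by omega)
  · intro f hf r hr
    obtain ⟨p, hp, -⟩ := hrank f hf
    rw [hr] at hp
    have hm := hmat f hf
    refine ⟨p 0, p 1, hp.start, ?_, hp.adj 0 (by omega), ?_⟩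
    · rw [show f (p 1) = p 2 from hp.mat 0 (by omega)]
      intro e
      have := hp.inj _ _ (by omega) (by omega) e
      omega
    · exact Nat.sInf_le ⟨_, rot_aug hm.1 hp⟩
  · intro f hf
    obtain ⟨p, hp, hmin⟩ := hrank f hf
    have := aug_length_bound (hmat f hf).1 hp hmin hα
    omega

/-- `G` has no induced claw: among three distinct neighbours of a vertex two are adjacent. -/
def IsClawFree (G : SimpleGraph V) : Prop :=
  ∀ x a b c, G.Adj x a → G.Adj x b → G.Adj x c → a ≠ b → a ≠ c → b ≠ c →
    G.Adj a b ∨ G.Adj a c ∨ G.Adj b c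

/-- The largest distance between two holes. -/
noncomputable def holeDist (G : SimpleGraph V) (f : V → V) : ℕ :=
  (holes f ×ˢ holes f).sup fun x => G.dist x.1 x.2

lemma holeDist_eq {G : SimpleGraph V} {f : V → V} {a b : V} (h : holes f = {a, b}) :
    holeDist G f = G.dist a b := by
  apply le_antisymm
  · apply Finset.sup_le
    rintro ⟨x, y⟩ hxy
    rw [mem_product, h] at hxy
    simp only [mem_insert, mem_singleton] at hxy
    rcases hxy with ⟨rfl | rfl, rfl | rfl⟩ <;> simp [SimpleGraph.dist_comm]
  · have : (a, b) ∈ holes f ×ˢ holes f := by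
      rw [mem_product, h]
      simp
    exact Finset.le_sup (f := fun x : V × V => G.dist x.1 x.2) this

lemma dist_le_succ_of_adj {G : SimpleGraph V} {a b c : V} (hconn : G.Connected) (h : G.Adj a b) :
    G.dist a c ≤ G.dist b c + 1 := by
  have h1 : G.dist a c ≤ G.dist a b + G.dist b c := hconn.dist_triangle
  have h2 : G.dist a b = 1 := SimpleGraph.dist_eq_one_iff_adj.mpr h
  omega

/-- Connected claw-free graphs of bounded diameter. -/
theorem clawFree_bound (G : SimpleGraph V) (D : ℕ) (hconn : G.Connected) (hclaw : IsClawFree G)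
    (hdiam : ∀ u v, G.dist u v ≤ D) :
    (nearPerfectMatchings G).card ≤
      (2 * Fintype.card V + 1) ^ D * Fintype.card V * (perfectMatchings G).card := by
  classical
  have hnp : ∀ f ∈ nearPerfectMatchings G, IsMatchingInv G f ∧
      ∃ p q, p ≠ q ∧ holes f = {p, q} := by
    intro f hf
    simp only [nearPerfectMatchings, mem_filter, mem_univ, true_and] at hf
    obtain ⟨p, q, hpq, hh⟩ := card_eq_two.mp hf.2
    exact ⟨hf.1, p, q, hpq, hh⟩
  have hmemh : ∀ (f : V → V) x, x ∈ holes f ↔ f x = x := by
    intro f x
    simp [holes]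
  apply master (fun f => holeDist G f - 1)
  · intro f hf h0
    obtain ⟨hm, p, q, hpq, hh⟩ := hnp f hf
    have hd : holeDist G f = G.dist p q := holeDist_eq hh
    have hp : f p = p := (hmemh f p).mp (by rw [hh]; simp)
    have hq : f q = q := (hmemh f q).mp (by rw [hh]; simp)
    refine ⟨p, q, hp, hq, ?_⟩
    have hpos := hconn.pos_dist_of_ne hpq
    rw [hd] at h0
    exact SimpleGraph.dist_eq_one_iff_adj.mp (by omega)
  · intro f hf r hr
    obtain ⟨hm, p, q, hpq, hh⟩ := hnp f hf
    have hd : holeDist G f = G.dist p q := holeDist_eq hh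
    have hp : f p = p := (hmemh f p).mp (by rw [hh]; simp)
    have hq : f q = q := (hmemh f q).mp (by rw [hh]; simp)
    rw [hd] at hr
    have hinv := hm.1
    have hdist : G.dist p q = r + 2 := by omega
    -- the new rank after a rotation at `p`
    have hrank : ∀ t, f t ≠ t → G.Adj p t → G.dist (f t) q ≤ r + 1 →
        holeDist G (rot f p t) - 1 ≤ r := by
      intro t ht ha hle
      have hnew : holes (rot f p t) = {f t, q} := by
        rw [holes_rot hm hp ht ha, hh]
        ext x
        simp only [mem_insert, mem_erase, mem_singleton]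
        constructor
        · rintro (h | ⟨h1, h2 | h2⟩)
          · exact Or.inl h
          · exact absurd h2 h1
          · exact Or.inr h2
        · rintro (h | h)
          · exact Or.inl h
          · exact Or.inr ⟨by rw [h]; exact hpq.symm, Or.inr h⟩
      rw [holeDist_eq hnew]
      omega
    obtain ⟨w, hw⟩ := hconn.exists_walk_length_eq_dist p q
    rcases w with _ | ⟨h1, w1⟩
    · exact absurd rfl hpq
    rcases w1 with _ | ⟨h2, w2⟩
    · simp at hw
      omega
    rename_i x y
    simp only [SimpleGraph.Walk.length_cons] at hw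
    have hxq : G.dist x q ≤ r + 1 := (SimpleGraph.dist_le (SimpleGraph.Walk.cons h2 w2)).trans (by
      simp only [SimpleGraph.Walk.length_cons]
      omega)
    have hyq : G.dist y q ≤ r := (SimpleGraph.dist_le w2).trans (by omega)
    have hxne : x ≠ q := by
      intro e
      rw [e] at h1
      rw [SimpleGraph.dist_eq_one_iff_adj.mpr h1] at hdist
      omega
    have hxhole : f x ≠ x := by
      intro e
      have : x ∈ holes f := (hmemh f x).mpr e
      rw [hh] at this
      simp only [mem_insert, mem_singleton] at this
      rcases this with e' | e'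
      · exact h1.ne e'.symm
      · exact hxne e'
    have hadjx : G.Adj x (f x) := hm.2 x hxhole
    have hnoadj : ¬ G.Adj p y := by
      intro ha
      have := dist_le_succ_of_adj (c := q) hconn ha
      omega
    have hpy : p ≠ y := by
      intro e
      rw [← e] at hyq
      omega
    have hpx' : p ≠ f x := by
      intro e
      have : f (f x) = x := hinv x
      rw [← e, hp] at this
      exact h1.ne this
    by_cases hy : y = f x
    · refine ⟨p, x, hp, hxhole, h1, hrank x hxhole h1 ?_⟩
      rw [← hy]
      omega
    rcases hclaw x p y (f x) h1.symm h2 hadjx hpy hpx' hy with h | h | h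
    · exact absurd h hnoadj
    · have hft : f (f x) ≠ f x := by
        rw [hinv]
        exact hxhole.symm
      refine ⟨p, f x, hp, hft, h, hrank (f x) hft h ?_⟩
      rw [hinv]
      exact hxq
    · refine ⟨p, x, hp, hxhole, h1, hrank x hxhole h1 ?_⟩
      have := dist_le_succ_of_adj (c := q) hconn h.symm
      omega
  · intro f hf
    obtain ⟨hm, p, q, hpq, hh⟩ := hnp f hf
    have hd : holeDist G f = G.dist p q := holeDist_eq hh
    have := hdiam p q
    omega

/-- **Polynomial ratio of near-perfect to perfect matchings on two graph classes.** Let `G` be a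
graph on `n` vertices.
(1) If the independence number of `G` is at most `k` and `G` has a perfect matching, then the number
of near-perfect matchings is at most `(2 n + 1) ^ ((k + 1) (2 k + 1)) * n` times the number of
perfect matchings.
(2) If `G` is connected, claw-free and of diameter at most `D`, then the number of near-perfect
matchings is at most `(2 n + 1) ^ D * n` times the number of perfect matchings. -/
theorem result (G : SimpleGraph V) :
    (∀ k : ℕ, (∀ S : Finset V, G.IsIndepSet (S : Set V) → S.card ≤ k) →
      (perfectMatchings G).Nonempty →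
      (nearPerfectMatchings G).card ≤
        (2 * Fintype.card V + 1) ^ ((k + 1) * (2 * k + 1)) * Fintype.card V *
          (perfectMatchings G).card) ∧
    (∀ D : ℕ, G.Connected → IsClawFree G → (∀ u v, G.dist u v ≤ D) →
      (nearPerfectMatchings G).card ≤
        (2 * Fintype.card V + 1) ^ D * Fintype.card V * (perfectMatchings G).card) :=
  ⟨fun k hα hZ => independence_bound G k hα hZ, fun D hc hcl hd => clawFree_bound G D hc hcl hd⟩

end Vale.Agent.Results.P308.BoundedIndependence
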