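import Mathlib

/-!
Near-perfect matchings versus perfect matchings in vertex-transitive graphs.

A matching of a graph on `V` is encoded by the involution `f : V → V` sending a covered vertex to
its partner and fixing the uncovered vertices (the holes).  For two matchings `f, g` the set of
vertices reachable from a vertex `u` by applying `f` and `g` is an alternating component; swapping
`f` and `g` on this component gives a four-point inequality for the numbers of matchings with
prescribed holes, and, for vertex-transitive graphs, a Lipschitz bound for these numbers along the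
edges of the graph.
-/

set_option linter.unusedSectionVars false
set_option linter.unusedSimpArgs false

namespace Vale.Agent.Results.P308.VertexTransitive

open Finset

variable {V : Type*} [Fintype V] [DecidableEq V]

/-- `f` is the involution of a matching of `G`: `f` is an involution and every vertex moved by `f`
is adjacent to its image. The fixed points are the uncovered vertices. -/
def IsMatchingInv (G : SimpleGraph V) (f : V → V) : Prop :=
  (∀ v, f (f v) = v) ∧ ∀ v, f v ≠ v → G.Adj v (f v)

/-- The uncovered vertices of the matching encoded by `f`. -/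
def holes (f : V → V) : Finset V := univ.filter fun v => f v = v

open Classical in
/-- All matchings of `G` whose set of uncovered vertices is exactly `S`. -/
noncomputable def withHoles (G : SimpleGraph V) (S : Finset V) : Finset (V → V) :=
  univ.filter fun f => IsMatchingInv G f ∧ holes f = S

open Classical in
/-- All perfect matchings of `G` (as involutions without fixed points). -/
noncomputable def perfectMatchings (G : SimpleGraph V) : Finset (V → V) :=
  univ.filter fun f => IsMatchingInv G f ∧ holes f = ∅

open Classical in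
/-- All near-perfect matchings of `G`: matchings leaving exactly two vertices uncovered. -/
noncomputable def nearPerfectMatchings (G : SimpleGraph V) : Finset (V → V) :=
  univ.filter fun f => IsMatchingInv G f ∧ (holes f).card = 2

lemma mem_withHoles {G : SimpleGraph V} {S : Finset V} {f : V → V} :
    f ∈ withHoles G S ↔ IsMatchingInv G f ∧ holes f = S := by
  simp [withHoles]

lemma mem_holes {f : V → V} {v : V} : v ∈ holes f ↔ f v = v := by
  simp [holes]

/-! ### Alternating components -/

/-- One step of an alternating walk. -/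
def altStep (f g : V → V) (a b : V) : Prop := b = f a ∨ b = g a

open Classical in
/-- The alternating component of `u` for the two maps `f` and `g`. -/
noncomputable def comp (f g : V → V) (u : V) : Finset V :=
  univ.filter fun w => Relation.ReflTransGen (altStep f g) u w

lemma mem_comp {f g : V → V} {u w : V} :
    w ∈ comp f g u ↔ Relation.ReflTransGen (altStep f g) u w := by
  simp [comp]

lemma self_mem_comp (f g : V → V) (u : V) : u ∈ comp f g u :=
  mem_comp.2 Relation.ReflTransGen.refl

lemma comp_closed_left {f g : V → V} {u w : V} (h : w ∈ comp f g u) : f w ∈ comp f g u :=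
  mem_comp.2 ((mem_comp.1 h).tail (Or.inl rfl))

lemma comp_closed_right {f g : V → V} {u w : V} (h : w ∈ comp f g u) : g w ∈ comp f g u :=
  mem_comp.2 ((mem_comp.1 h).tail (Or.inr rfl))

/-- Use `g` on `O` and `f` outside `O`. -/
def swapOn (O : Finset V) (f g : V → V) : V → V := fun w => if w ∈ O then g w else f w

lemma swapOn_isMatching {G : SimpleGraph V} {O : Finset V} {f g : V → V}
    (hf : IsMatchingInv G f) (hg : IsMatchingInv G g)
    (h1 : ∀ w ∈ O, f w ∈ O) (h2 : ∀ w ∈ O, g w ∈ O) : IsMatchingInv G (swapOn O f g) := by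
  constructor
  · intro w
    by_cases hw : w ∈ O
    · simp [swapOn, hw, h2 w hw, hg.1]
    · have : f w ∉ O := fun h => hw (by simpa [hf.1] using h1 _ h)
      simp [swapOn, hw, this, hf.1]
  · intro w hw'
    by_cases hw : w ∈ O
    · simp only [swapOn, hw, if_true] at hw' ⊢
      exact hg.2 w hw'
    · simp only [swapOn, hw, if_false] at hw' ⊢
      exact hf.2 w hw'

lemma holes_swapOn (O : Finset V) (f g : V → V) :
    holes (swapOn O f g) = (holes f).filter (· ∉ O) ∪ (holes g).filter (· ∈ O) := by
  ext w
  rw [mem_union, mem_filter, mem_filter, mem_holes, mem_holes, mem_holes]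
  by_cases hw : w ∈ O <;> simp [swapOn, hw]

lemma comp_swap (f g : V → V) (u : V) :
    comp (swapOn (comp f g u) f g) (swapOn (comp f g u) g f) u = comp f g u := by
  set O := comp f g u with hO
  ext w
  rw [mem_comp]
  constructor
  · intro h
    induction h with
    | refl => exact self_mem_comp f g u
    | tail _ hstep ih =>
      rcases hstep with e | e
      · rw [e]
        simp only [swapOn, ih, if_true]
        exact comp_closed_right ih
      · rw [e]
        simp only [swapOn, ih, if_true]
        exact comp_closed_left ih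
  · intro h
    have h' := mem_comp.1 h
    have key : ∀ w, Relation.ReflTransGen (altStep f g) u w →
        Relation.ReflTransGen (altStep (swapOn O f g) (swapOn O g f)) u w := by
      intro w hw
      induction hw with
      | refl => exact Relation.ReflTransGen.refl
      | @tail b c hab hstep ih =>
        have hb : b ∈ O := mem_comp.2 hab
        refine ih.tail ?_
        rcases hstep with e | e
        · right
          simp [swapOn, hb, e]
        · left
          simp [swapOn, hb, e]
    exact key w h'

lemma swap_swap (O : Finset V) (f g : V → V) : swapOn O (swapOn O f g) (swapOn O g f) = f := by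
  funext w
  by_cases hw : w ∈ O <;> simp [swapOn, hw]

/-! ### The structure of a component containing a hole of `f` -/

section trichotomy

variable {G : SimpleGraph V} {f g : V → V} {u v x y : V}

/-- The involution as a permutation. -/
def invPerm (f : V → V) (hf : ∀ v, f (f v) = v) : Equiv.Perm V :=
  ⟨f, f, hf, hf⟩

lemma invPerm_apply (f : V → V) (hf : ∀ v, f (f v) = v) (w : V) : invPerm f hf w = f w := rfl

lemma invPerm_mul (f : V → V) (hf : ∀ v, f (f v) = v) : invPerm f hf * invPerm f hf = 1 := by
  ext w
  simp [invPerm_apply, hf]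

/-- `F` inverts the powers of `h = G * F` on the orbit of a fixed point of `F`. -/
lemma F_zpow {F H : Equiv.Perm V} (hF : F * F = 1) (hH : H * H = 1) {u : V} (hu : F u = u) (k : ℤ) :
    F (((H * F) ^ k) u) = ((H * F) ^ (-k)) u := by
  have hFi : F⁻¹ = F := by
    rw [inv_eq_iff_mul_eq_one]
    exact hF
  have hHi : H⁻¹ = H := by
    rw [inv_eq_iff_mul_eq_one]
    exact hH
  have e : F * (H * F) * F⁻¹ = (H * F)⁻¹ := by
    rw [mul_inv_rev, hFi, hHi, mul_assoc, mul_assoc, hF, mul_one]
  have e2 : F * (H * F) ^ k * F⁻¹ = (H * F) ^ (-k) := by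
    rw [← conj_zpow, e, inv_zpow, zpow_neg]
  have e3 : F * (H * F) ^ k = (H * F) ^ (-k) * F := by
    rw [← e2, mul_assoc, inv_mul_cancel, mul_one]
  have := congrArg (fun p : Equiv.Perm V => p u) e3
  simpa [Equiv.Perm.mul_apply, hu] using this

lemma H_zpow {F H : Equiv.Perm V} (hF : F * F = 1) (hH : H * H = 1) {u : V} (hu : F u = u) (k : ℤ) :
    H (((H * F) ^ k) u) = ((H * F) ^ (1 - k)) u := by
  have h1 := F_zpow hF hH hu k
  have h2 : H (((H * F) ^ k) u) = (H * F) (F (((H * F) ^ k) u)) := by
    simp only [Equiv.Perm.mul_apply]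
    have : F (F (((H * F) ^ k) u)) = ((H * F) ^ k) u := by
      have := congrArg (fun p : Equiv.Perm V => p (((H * F) ^ k) u)) hF
      simpa [Equiv.Perm.mul_apply] using this
    rw [this]
  rw [h2, h1, ← Equiv.Perm.mul_apply, ← zpow_one_add]
  congr 2

/-- Periods are closed under integer multiples. -/
lemma period_mul {h : Equiv.Perm V} {u : V} {j : ℤ} (hj : (h ^ j) u = u) (c : ℤ) :
    (h ^ (c * j)) u = u := by
  rw [mul_comm, zpow_mul]
  exact Equiv.Perm.zpow_apply_eq_self_of_apply_eq_self hj c

lemma period_add {h : Equiv.Perm V} {u : V} {a b : ℤ} (ha : (h ^ a) u = u) (hb : (h ^ b) u = u) :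
    (h ^ (a + b)) u = u := by
  rw [zpow_add, Equiv.Perm.mul_apply, hb, ha]

/-- The elements of the component are in the cyclic orbit. -/
lemma comp_subset_orbit {F H : Equiv.Perm V} (hF : F * F = 1) (hH : H * H = 1) {u : V}
    (hu : F u = u) {w : V} (hw : w ∈ comp (F : V → V) (H : V → V) u) :
    ∃ k : ℤ, w = ((H * F) ^ k) u := by
  have := mem_comp.1 hw
  induction this with
  | refl => exact ⟨0, by simp⟩
  | @tail b c hab hstep ih =>
    obtain ⟨k, hk⟩ := ih (mem_comp.2 hab)
    rcases hstep with e | e
    · exact ⟨-k, by rw [e, hk]; exact F_zpow hF hH hu k⟩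
    · exact ⟨1 - k, by rw [e, hk]; exact H_zpow hF hH hu k⟩

/-- The orbit is in the component. -/
lemma orbit_subset_comp {F H : Equiv.Perm V} {u : V} (k : ℕ) :
    ((H * F) ^ k) u ∈ comp (F : V → V) (H : V → V) u := by
  induction k with
  | zero => simpa using self_mem_comp _ _ u
  | succ k ih =>
    rw [pow_succ']
    simp only [Equiv.Perm.mul_apply]
    exact comp_closed_right (comp_closed_left ih)

/-- A component containing the hole `u` of `F` contains a further fixed point of `F` or `H`. -/
lemma exists_other_fixed {F H : Equiv.Perm V} (hF : F * F = 1) (hH : H * H = 1) {u : V}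
    (hu : F u = u) :
    ∃ w ∈ comp (F : V → V) (H : V → V) u, (w ≠ u ∧ F w = w) ∨ H w = w := by
  classical
  set h := H * F with hh
  have hex : ∃ m : ℕ, 0 < m ∧ (h ^ m) u = u :=
    ⟨orderOf h, orderOf_pos h, by rw [pow_orderOf_eq_one]; rfl⟩
  set m := Nat.find hex with hm
  have hm0 : 0 < m := (Nat.find_spec hex).1
  have hm1 : (h ^ m) u = u := (Nat.find_spec hex).2
  have hmin : ∀ j : ℕ, 0 < j → j < m → (h ^ j) u ≠ u := by
    intro j hj hjm e
    exact Nat.find_min hex hjm ⟨hj, e⟩
  rcases Nat.even_or_odd' m with ⟨l, hl | hl⟩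
  · -- even period: the middle point is a fixed point of `F`
    refine ⟨(h ^ l) u, orbit_subset_comp l, Or.inl ⟨hmin l (by omega) (by omega), ?_⟩⟩
    have e := F_zpow hF hH hu (l : ℤ)
    rw [zpow_natCast] at e
    rw [e]
    have e2 : (h ^ (-(l : ℤ))) u = (h ^ (-(l : ℤ))) ((h ^ m) u) := by rw [hm1]
    rw [e2, ← Equiv.Perm.mul_apply, ← zpow_natCast h m, ← zpow_add]
    have : -(l : ℤ) + (m : ℤ) = (l : ℤ) := by
      rw [hl]; push_cast; ring
    rw [this, zpow_natCast]
  · -- odd period: the middle point is a fixed point of `H`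
    refine ⟨(h ^ (l + 1)) u, orbit_subset_comp (l + 1), Or.inr ?_⟩
    have e := H_zpow hF hH hu ((l + 1 : ℕ) : ℤ)
    rw [zpow_natCast] at e
    rw [e]
    have e2 : (h ^ (1 - ((l + 1 : ℕ) : ℤ))) u
        = (h ^ (1 - ((l + 1 : ℕ) : ℤ))) ((h ^ m) u) := by rw [hm1]
    rw [e2, ← Equiv.Perm.mul_apply, ← zpow_natCast h m, ← zpow_add]
    have : 1 - ((l + 1 : ℕ) : ℤ) + (m : ℤ) = ((l + 1 : ℕ) : ℤ) := by
      rw [hl]; push_cast; ring
    rw [this, zpow_natCast]

/-- Two elements of the orbit which are fixed by `F` and `H` respectively: `F`-fixed means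
`2 k` is a period, `H`-fixed means `2 l - 1` is a period; then `k` is a period. -/
lemma fixed_F_H_excl {F H : Equiv.Perm V} (hF : F * F = 1) (hH : H * H = 1) {u : V}
    (hu : F u = u) {v x : V} (hv : v ∈ comp (F : V → V) (H : V → V) u)
    (hx : x ∈ comp (F : V → V) (H : V → V) u) (hvF : F v = v) (hxH : H x = x) : v = u := by
  obtain ⟨k, rfl⟩ := comp_subset_orbit hF hH hu hv
  obtain ⟨l, rfl⟩ := comp_subset_orbit hF hH hu hx
  rw [F_zpow hF hH hu] at hvF
  rw [H_zpow hF hH hu] at hxH
  set h := H * F
  -- periods
  have p1 : (h ^ (2 * k)) u = u := by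
    have : (h ^ k) ((h ^ (-k)) u) = (h ^ k) ((h ^ k) u) := by rw [hvF]
    have e1 : (h ^ k) ((h ^ (-k)) u) = u := by
      rw [← Equiv.Perm.mul_apply, ← zpow_add]; simp
    rw [e1, ← Equiv.Perm.mul_apply, ← zpow_add] at this
    rw [two_mul]
    exact this.symm
  have p2 : (h ^ (2 * l - 1)) u = u := by
    have : (h ^ l) ((h ^ (1 - l)) u) = (h ^ l) ((h ^ l) u) := by rw [hxH]
    have e1 : (h ^ l) ((h ^ (1 - l)) u) = (h ^ (l + (1 - l))) u := by
      rw [zpow_add, Equiv.Perm.mul_apply]
    rw [e1, ← Equiv.Perm.mul_apply, ← zpow_add] at this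
    have e2 : l + (1 - l) = 1 := by ring
    rw [e2] at this
    -- `h u = h ^ (2 l) u`, hence `2 l - 1` is a period
    have e3 : (h ^ (2 * l - 1)) u = (h ^ (-1 : ℤ)) ((h ^ (l + l)) u) := by
      rw [← Equiv.Perm.mul_apply, ← zpow_add]
      congr 2
      ring
    rw [e3, ← this, ← Equiv.Perm.mul_apply, ← zpow_add]
    simp
  have p3 : (h ^ k) u = u := by
    have a1 := period_mul p1 l
    have a2 := period_mul p2 (-k)
    have a3 := period_add a1 a2
    have : l * (2 * k) + -k * (2 * l - 1) = k := by ring
    rwa [this] at a3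
  exact p3

/-- Two elements of the orbit fixed by `H` coincide. -/
lemma fixed_H_H_eq {F H : Equiv.Perm V} (hF : F * F = 1) (hH : H * H = 1) {u : V}
    (hu : F u = u) {x y : V} (hx : x ∈ comp (F : V → V) (H : V → V) u)
    (hy : y ∈ comp (F : V → V) (H : V → V) u) (hxH : H x = x) (hyH : H y = y) : x = y := by
  obtain ⟨k, rfl⟩ := comp_subset_orbit hF hH hu hx
  obtain ⟨l, rfl⟩ := comp_subset_orbit hF hH hu hy
  rw [H_zpow hF hH hu] at hxH hyH
  set h := H * F
  have aux : ∀ l : ℤ, (h ^ (1 - l)) u = (h ^ l) u → (h ^ (2 * l - 1)) u = u := by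
    intro l hl
    have : (h ^ l) ((h ^ (1 - l)) u) = (h ^ l) ((h ^ l) u) := by rw [hl]
    have e1 : (h ^ l) ((h ^ (1 - l)) u) = (h ^ (l + (1 - l))) u := by
      rw [zpow_add, Equiv.Perm.mul_apply]
    rw [e1, ← Equiv.Perm.mul_apply, ← zpow_add] at this
    have e2 : l + (1 - l) = 1 := by ring
    rw [e2] at this
    have e3 : (h ^ (2 * l - 1)) u = (h ^ (-1 : ℤ)) ((h ^ (l + l)) u) := by
      rw [← Equiv.Perm.mul_apply, ← zpow_add]
      congr 2
      ring
    rw [e3, ← this, ← Equiv.Perm.mul_apply, ← zpow_add]
    simp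
  have p1 := aux k hxH
  have p2 := aux l hyH
  -- `k - l` is a period
  have p3 : (h ^ (k - l)) u = u := by
    have a0 : (h ^ (2 * (k - l))) u = u := by
      have := period_add p1 (period_mul p2 (-1))
      have e : 2 * k - 1 + -1 * (2 * l - 1) = 2 * (k - l) := by ring
      rwa [e] at this
    have a1 := period_mul a0 k
    have a2 := period_mul p1 (-(k - l))
    have a3 := period_add a1 a2
    have : k * (2 * (k - l)) + -(k - l) * (2 * k - 1) = k - l := by ring
    rwa [this] at a3
  have e : (h ^ k) u = (h ^ l) ((h ^ (k - l)) u) := by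
    rw [← Equiv.Perm.mul_apply, ← zpow_add]
    congr 2
    ring
  rw [e, p3]

/-- The three possibilities for the component of `u`. -/
lemma trichotomy {G : SimpleGraph V} {f g : V → V} {u v x y : V}
    (hf : IsMatchingInv G f) (hg : IsMatchingInv G g)
    (hfh : holes f = {u, v}) (hgh : holes g = {x, y})
    (huv : u ≠ v) (hxy : x ≠ y) :
    (v ∈ comp f g u ∧ x ∉ comp f g u ∧ y ∉ comp f g u)
      ∨ (x ∈ comp f g u ∧ v ∉ comp f g u ∧ y ∉ comp f g u)
      ∨ (y ∈ comp f g u ∧ v ∉ comp f g u ∧ x ∉ comp f g u) := by
  set F := invPerm f hf.1 with hFd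
  set H := invPerm g hg.1 with hHd
  have hF : F * F = 1 := invPerm_mul f hf.1
  have hH : H * H = 1 := invPerm_mul g hg.1
  have hu : F u = u := by
    have : u ∈ holes f := by rw [hfh]; simp
    exact mem_holes.1 this
  have hvF : F v = v := by
    have : v ∈ holes f := by rw [hfh]; simp
    exact mem_holes.1 this
  have hxH : H x = x := by
    have : x ∈ holes g := by rw [hgh]; simp
    exact mem_holes.1 this
  have hyH : H y = y := by
    have : y ∈ holes g := by rw [hgh]; simp
    exact mem_holes.1 this
  have hc : comp f g u = comp (F : V → V) (H : V → V) u := rfl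
  have e1 : v ∈ comp f g u → x ∉ comp f g u := fun a b =>
    huv (fixed_F_H_excl hF hH hu a b hvF hxH).symm
  have e2 : v ∈ comp f g u → y ∉ comp f g u := fun a b =>
    huv (fixed_F_H_excl hF hH hu a b hvF hyH).symm
  have e3 : x ∈ comp f g u → y ∉ comp f g u := fun a b =>
    hxy (fixed_H_H_eq hF hH hu a b hxH hyH)
  obtain ⟨w, hw, hcase⟩ := exists_other_fixed hF hH hu
  rcases hcase with ⟨hne, hwF⟩ | hwH
  · -- a second fixed point of `F`: it is `v`
    have : w ∈ holes f := mem_holes.2 hwF
    rw [hfh] at this
    simp only [mem_insert, mem_singleton] at this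
    rcases this with rfl | rfl
    · exact absurd rfl hne
    · exact Or.inl ⟨hw, e1 hw, e2 hw⟩
  · have : w ∈ holes g := mem_holes.2 hwH
    rw [hgh] at this
    simp only [mem_insert, mem_singleton] at this
    rcases this with rfl | rfl
    · exact Or.inr (Or.inl ⟨hw, fun a => e1 a hw, e3 hw⟩)
    · exact Or.inr (Or.inr ⟨hw, fun a => e2 a hw, fun a => e3 a hw⟩)

end trichotomy

/-! ### The four-point inequality -/

lemma case_A {O : Finset V} {u v x y : V} (hu : u ∈ O) (hv : v ∈ O) (hx : x ∉ O) (hy : y ∉ O) :
    (({u, v} : Finset V).filter (· ∉ O)) ∪ (({x, y} : Finset V).filter (· ∈ O)) = ∅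
      ∧ (({x, y} : Finset V).filter (· ∉ O)) ∪ (({u, v} : Finset V).filter (· ∈ O))
        = {u, v, x, y} := by
  constructor
  · simp [filter_insert, filter_singleton, hu, hv, hx, hy]
  · simp only [filter_insert, filter_singleton, hu, hv, hx, hy, not_true_eq_false, not_false_eq_true,
      if_true, if_false]
    ext w
    simp only [mem_union, mem_insert, mem_singleton]
    tauto

lemma case_B {O : Finset V} {u v x y : V} (hu : u ∈ O) (hv : v ∉ O) (hx : x ∈ O) (hy : y ∉ O) :
    (({u, v} : Finset V).filter (· ∉ O)) ∪ (({x, y} : Finset V).filter (· ∈ O)) = {x, v}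
      ∧ (({x, y} : Finset V).filter (· ∉ O)) ∪ (({u, v} : Finset V).filter (· ∈ O)) = {u, y} := by
  constructor
  · simp only [filter_insert, filter_singleton, hu, hv, hx, hy, not_true_eq_false, not_false_eq_true,
      if_true, if_false]
    ext w
    simp only [mem_union, mem_insert, mem_singleton, notMem_empty]
    tauto
  · simp only [filter_insert, filter_singleton, hu, hv, hx, hy, not_true_eq_false, not_false_eq_true,
      if_true, if_false]
    ext w
    simp only [mem_union, mem_insert, mem_singleton, notMem_empty]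
    tauto

lemma case_C {O : Finset V} {u v x y : V} (hu : u ∈ O) (hv : v ∉ O) (hx : x ∉ O) (hy : y ∈ O) :
    (({u, v} : Finset V).filter (· ∉ O)) ∪ (({x, y} : Finset V).filter (· ∈ O)) = {y, v}
      ∧ (({x, y} : Finset V).filter (· ∉ O)) ∪ (({u, v} : Finset V).filter (· ∈ O)) = {u, x} := by
  constructor
  · simp only [filter_insert, filter_singleton, hu, hv, hx, hy, not_true_eq_false, not_false_eq_true,
      if_true, if_false]
    ext w
    simp only [mem_union, mem_insert, mem_singleton, notMem_empty]
    tauto
  · simp only [filter_insert, filter_singleton, hu, hv, hx, hy, not_true_eq_false, not_false_eq_true,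
      if_true, if_false]
    ext w
    simp only [mem_union, mem_insert, mem_singleton, notMem_empty]
    tauto

/-- Swapping on the alternating component of `u`. -/
noncomputable def Phi (u : V) (p : (V → V) × (V → V)) : (V → V) × (V → V) :=
  (swapOn (comp p.1 p.2 u) p.1 p.2, swapOn (comp p.1 p.2 u) p.2 p.1)

lemma Phi_Phi (u : V) (p : (V → V) × (V → V)) : Phi u (Phi u p) = p := by
  obtain ⟨f, g⟩ := p
  simp only [Phi]
  rw [comp_swap, swap_swap, swap_swap]

lemma Phi_injective (u : V) : Function.Injective (Phi u) :=
  Function.LeftInverse.injective (Phi_Phi u)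

theorem four_point (G : SimpleGraph V) {u v x y : V} (huv : u ≠ v) (hxy : x ≠ y) :
    (withHoles G {u, v}).card * (withHoles G {x, y}).card
      ≤ (withHoles G {x, v}).card * (withHoles G {u, y}).card
        + (withHoles G {y, v}).card * (withHoles G {u, x}).card
        + (withHoles G ∅).card * (withHoles G {u, v, x, y}).card := by
  classical
  rw [← card_product, ← card_product, ← card_product, ← card_product]
  have hmain : (withHoles G {u, v} ×ˢ withHoles G {x, y}).card
      ≤ ((withHoles G {x, v} ×ˢ withHoles G {u, y}) ∪ (withHoles G {y, v} ×ˢ withHoles G {u, x})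
          ∪ (withHoles G ∅ ×ˢ withHoles G {u, v, x, y})).card := by
    refine card_le_card_of_injOn (Phi u) ?_ ((Phi_injective u).injOn)
    rintro ⟨f, g⟩ hp
    have hp' : f ∈ withHoles G {u, v} ∧ g ∈ withHoles G {x, y} := by simpa using hp
    obtain ⟨hf, hfh⟩ := mem_withHoles.1 hp'.1
    obtain ⟨hg, hgh⟩ := mem_withHoles.1 hp'.2
    have hO : u ∈ comp f g u := self_mem_comp f g u
    have m1 : IsMatchingInv G (swapOn (comp f g u) f g) :=
      swapOn_isMatching hf hg (fun _ h => comp_closed_left h) (fun _ h => comp_closed_right h)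
    have m2 : IsMatchingInv G (swapOn (comp f g u) g f) :=
      swapOn_isMatching hg hf (fun _ h => comp_closed_right h) (fun _ h => comp_closed_left h)
    have h1 := holes_swapOn (comp f g u) f g
    have h2 := holes_swapOn (comp f g u) g f
    rw [hfh, hgh] at h1 h2
    simp only [Phi, coe_union, coe_product, Set.mem_union, Set.mem_prod, mem_coe]
    rcases trichotomy hf hg hfh hgh huv hxy with ⟨a, b, c⟩ | ⟨a, b, c⟩ | ⟨a, b, c⟩
    · obtain ⟨e1, e2⟩ := case_A hO a b c
      right
      exact ⟨mem_withHoles.2 ⟨m1, by rw [h1, e1]⟩, mem_withHoles.2 ⟨m2, by rw [h2, e2]⟩⟩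
    · obtain ⟨e1, e2⟩ := case_B hO b a c
      left; left
      exact ⟨mem_withHoles.2 ⟨m1, by rw [h1, e1]⟩, mem_withHoles.2 ⟨m2, by rw [h2, e2]⟩⟩
    · obtain ⟨e1, e2⟩ := case_C hO b c a
      left; right
      exact ⟨mem_withHoles.2 ⟨m1, by rw [h1, e1]⟩, mem_withHoles.2 ⟨m2, by rw [h2, e2]⟩⟩
  refine hmain.trans ?_
  exact (card_union_le _ _).trans (Nat.add_le_add_right (card_union_le _ _) _)

/-! ### Adding an edge -/

/-- Match the two holes `a` and `b`. -/
def addEdge (f : V → V) (a b : V) : V → V := fun w => if w = a then b else if w = b then a else f w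

lemma addEdge_isMatching {G : SimpleGraph V} {f : V → V} {a b : V} (hf : IsMatchingInv G f)
    (ha : f a = a) (hb : f b = b) (hab : G.Adj a b) : IsMatchingInv G (addEdge f a b) := by
  have hne : a ≠ b := hab.ne
  constructor
  · intro w
    by_cases h1 : w = a
    · subst h1
      simp [addEdge, hne.symm]
    by_cases h2 : w = b
    · subst h2
      simp [addEdge, hne.symm]
    have e1 : f w ≠ a := by
      intro e
      have := hf.1 w
      rw [e, ha] at this
      exact h1 this.symm
    have e2 : f w ≠ b := by
      intro e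
      have := hf.1 w
      rw [e, hb] at this
      exact h2 this.symm
    simp [addEdge, h1, h2, e1, e2, hf.1]
  · intro w hw
    by_cases h1 : w = a
    · subst h1
      simpa [addEdge] using hab
    by_cases h2 : w = b
    · subst h2
      simpa [addEdge, hne.symm] using hab.symm
    have e : addEdge f a b w = f w := by simp [addEdge, h1, h2]
    rw [e] at hw ⊢
    exact hf.2 w hw

lemma holes_addEdge {f : V → V} {a b : V} (hne : a ≠ b) :
    holes (addEdge f a b) = ((holes f).erase a).erase b := by
  ext w
  rw [mem_erase, mem_erase, mem_holes, mem_holes]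
  by_cases h1 : w = a
  · subst h1
    simp [addEdge, hne.symm]
  by_cases h2 : w = b
  · subst h2
    simp [addEdge, hne.symm, hne]
  simp [addEdge, h1, h2]

/-- Adding the edge `ab` is injective on the matchings having the holes `a`, `b`. -/
lemma card_insert_le {G : SimpleGraph V} {a b : V} (hab : G.Adj a b) {S : Finset V} (ha : a ∉ S)
    (hb : b ∉ S) : (withHoles G (insert a (insert b S))).card ≤ (withHoles G S).card := by
  classical
  have hne : a ≠ b := hab.ne
  refine card_le_card_of_injOn (fun f => addEdge f a b) ?_ ?_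
  · intro f hf
    have hf' := mem_withHoles.1 (by simpa using hf)
    have h1 : a ∈ holes f := by rw [hf'.2]; simp
    have h2 : b ∈ holes f := by rw [hf'.2]; simp
    have : addEdge f a b ∈ withHoles G S := by
      refine mem_withHoles.2 ⟨addEdge_isMatching hf'.1 (mem_holes.1 h1) (mem_holes.1 h2) hab, ?_⟩
      rw [holes_addEdge hne, hf'.2]
      ext w
      simp only [mem_erase, mem_insert]
      constructor
      · rintro ⟨h3, h4, h5 | h5 | h5⟩
        · exact absurd h5 h4
        · exact absurd h5 h3
        · exact h5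
      · intro h3
        refine ⟨?_, ?_, Or.inr (Or.inr h3)⟩
        · rintro rfl
          exact hb h3
        · rintro rfl
          exact ha h3
    simpa using this
  · intro f hf f' hf' e
    have hf1 := mem_withHoles.1 (by simpa using hf)
    have hf2 := mem_withHoles.1 (by simpa using hf')
    have a1 : f a = a := mem_holes.1 (by rw [hf1.2]; simp)
    have b1 : f b = b := mem_holes.1 (by rw [hf1.2]; simp)
    have a2 : f' a = a := mem_holes.1 (by rw [hf2.2]; simp)
    have b2 : f' b = b := mem_holes.1 (by rw [hf2.2]; simp)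
    funext w
    by_cases h1 : w = a
    · rw [h1, a1, a2]
    by_cases h2 : w = b
    · rw [h2, b1, b2]
    have := congrFun e w
    simpa [addEdge, h1, h2] using this

/-! ### Transport by automorphisms -/

lemma card_image_le (G : SimpleGraph V) (φ : G ≃g G) (S : Finset V) :
    (withHoles G S).card ≤ (withHoles G (S.image φ)).card := by
  classical
  refine card_le_card_of_injOn (fun f => fun w => φ (f (φ.symm w))) ?_ ?_
  · intro f hf
    have hf' := mem_withHoles.1 (by simpa using hf)
    have : (fun w => φ (f (φ.symm w))) ∈ withHoles G (S.image φ) := by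
      refine mem_withHoles.2 ⟨⟨?_, ?_⟩, ?_⟩
      · intro w
        simp [hf'.1.1]
      · intro w hw
        have h1 : f (φ.symm w) ≠ φ.symm w := by
          intro e
          apply hw
          simp [e]
        have h2 := hf'.1.2 _ h1
        have h3 := φ.map_adj_iff.2 h2
        simpa using h3
      · ext w
        rw [mem_holes, mem_image]
        constructor
        · intro e
          refine ⟨φ.symm w, ?_, by simp⟩
          rw [← hf'.2, mem_holes]
          apply φ.injective
          simpa using e
        · rintro ⟨a, ha, rfl⟩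
          rw [← hf'.2, mem_holes] at ha
          simp [ha]
    simpa using this
  · intro f _ f' _ e
    funext w
    have := congrFun e (φ w)
    simpa using this

lemma card_image_eq (G : SimpleGraph V) (φ : G ≃g G) (S : Finset V) :
    (withHoles G (S.image φ)).card = (withHoles G S).card := by
  apply le_antisymm _ (card_image_le G φ S)
  have h := card_image_le G φ.symm (S.image φ)
  have e : (S.image φ).image φ.symm = S := by
    ext w
    simp [mem_image]
  rwa [e] at h

/-- The number of matchings with holes exactly `a`, `b`; zero by convention if `a = b`. -/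
noncomputable def Nc (G : SimpleGraph V) (a b : V) : ℕ :=
  if a = b then 0 else (withHoles G {a, b}).card

lemma Nc_self (G : SimpleGraph V) (a : V) : Nc G a a = 0 := by simp [Nc]

lemma Nc_comm (G : SimpleGraph V) (a b : V) : Nc G a b = Nc G b a := by
  unfold Nc
  by_cases h : a = b
  · simp [h]
  · rw [if_neg h, if_neg (Ne.symm h), pair_comm]

lemma Nc_map (G : SimpleGraph V) (φ : G ≃g G) (a b : V) : Nc G (φ a) (φ b) = Nc G a b := by
  unfold Nc
  by_cases h : a = b
  · simp [h]
  · have h' : φ a ≠ φ b := fun e => h (φ.injective e)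
    rw [if_neg h, if_neg h']
    have := card_image_eq G φ {a, b}
    rw [image_insert, image_singleton] at this
    exact this

lemma Nc_adj_le {G : SimpleGraph V} {a b : V} (hab : G.Adj a b) :
    Nc G a b ≤ (withHoles G ∅).card := by
  unfold Nc
  rw [if_neg hab.ne]
  have := card_insert_le hab (S := ∅) (by simp) (by simp)
  simpa using this

/-- The main inequality along the powers of an automorphism which moves `p` to a neighbour. -/
lemma step_ineq {G : SimpleGraph V} (φ : G ≃g G) {p w : V} (hp : G.Adj p (φ p)) {F : ℕ}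
    (hF : ∀ a b, Nc G a b ≤ F) :
    Nc G p (φ w) ^ 2 ≤ Nc G p w * Nc G p (φ (φ w)) + 2 * (withHoles G ∅).card * F := by
  set Z := (withHoles G ∅).card with hZ
  by_cases h1 : φ w = p
  · rw [h1, Nc_self]
    simp
  by_cases h2 : w = p
  · -- the vertex `φ w` is the neighbour `φ p`
    subst h2
    have a1 := Nc_adj_le hp
    have a2 := hF w (φ w)
    have : Nc G w (φ w) ^ 2 ≤ Z * F := by
      rw [sq]
      exact Nat.mul_le_mul a1 a2
    nlinarith
  by_cases h3 : φ (φ w) = p
  · have hadj : G.Adj p (φ w) := by
      have : G.Adj (φ (φ w)) (φ p) := by rw [h3]; exact hp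
      exact (φ.map_adj_iff.1 this).symm
    have a1 := Nc_adj_le hadj
    have a2 := hF p (φ w)
    have : Nc G p (φ w) ^ 2 ≤ Z * F := by
      rw [sq]
      exact Nat.mul_le_mul a1 a2
    nlinarith
  by_cases h4 : φ w = w
  · rw [h4, h4, sq]
    exact Nat.le_add_right _ _
  -- the generic case
  have huv : p ≠ φ w := Ne.symm h1
  have hux : p ≠ φ p := hp.ne
  have hvy : φ w ≠ φ (φ w) := fun e => h4 (φ.injective e).symm
  have hvx : φ w ≠ φ p := fun e => h2 (φ.injective e)
  have huy : p ≠ φ (φ w) := Ne.symm h3
  have hxy : φ p ≠ φ (φ w) := fun e => huv (φ.injective e)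
  have main := four_point G huv hxy
  have e1 : (withHoles G {p, φ w}).card = Nc G p (φ w) := by simp [Nc, huv]
  have e2 : (withHoles G {φ p, φ (φ w)}).card = Nc G p (φ w) := by
    rw [← Nc_map G φ p (φ w)]
    simp [Nc, hxy]
  have e3 : (withHoles G {φ p, φ w}).card = Nc G p w := by
    rw [← Nc_map G φ p w]
    simp [Nc, hvx.symm]
  have e4 : (withHoles G {p, φ (φ w)}).card = Nc G p (φ (φ w)) := by simp [Nc, huy]
  have e5 : (withHoles G {φ (φ w), φ w}).card ≤ F := by
    have := hF (φ (φ w)) (φ w)
    simpa [Nc, hvy.symm] using this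
  have e6 : (withHoles G {p, φ p}).card ≤ Z := by
    have := Nc_adj_le hp
    simpa [Nc, hux] using this
  have e7 : (withHoles G {p, φ w, φ p, φ (φ w)}).card ≤ F := by
    have hset : ({p, φ w, φ p, φ (φ w)} : Finset V) = insert p (insert (φ p) {φ w, φ (φ w)}) := by
      ext a
      simp only [mem_insert, mem_singleton]
      tauto
    rw [hset]
    have ha : p ∉ ({φ w, φ (φ w)} : Finset V) := by simp [huv, huy]
    have hb : φ p ∉ ({φ w, φ (φ w)} : Finset V) := by simp [hvx.symm, hxy]
    refine (card_insert_le hp ha hb).trans ?_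
    have := hF (φ w) (φ (φ w))
    simpa [Nc, hvy] using this
  rw [e1, e2, e3, e4] at main
  have t1 : (withHoles G {φ (φ w), φ w}).card * (withHoles G {p, φ p}).card ≤ F * Z :=
    Nat.mul_le_mul e5 e6
  have t2 : Z * (withHoles G {p, φ w, φ p, φ (φ w)}).card ≤ Z * F := Nat.mul_le_mul_left _ e7
  rw [sq]
  nlinarith

/-! ### The Lipschitz lemma for periodic sequences -/

lemma seq_lip (a : ℕ → ℝ) (ha : ∀ k, 0 ≤ a k) (m : ℕ) (hm : 0 < m) (hper : ∀ k, a (k + m) = a k)
    (C : ℝ) (hC : ∀ k, a (k + 1) ^ 2 ≤ a k * a (k + 2) + C) (k : ℕ) :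
    a (k + 1) ≤ a k + Real.sqrt C := by
  by_contra hcon
  push Not at hcon
  set d := a (k + 1) - a k with hd
  have hd1 : Real.sqrt C < d := by rw [hd]; linarith
  have hd0 : 0 < d := lt_of_le_of_lt (Real.sqrt_nonneg _) hd1
  have hd2 : C < d ^ 2 := by
    rcases lt_or_ge C 0 with h | h
    · nlinarith [sq_nonneg d]
    · have := Real.sq_sqrt h
      nlinarith [Real.sqrt_nonneg C]
  -- the increments stay at least `d`
  have hinc : ∀ j, d ≤ a (k + j + 1) - a (k + j) := by
    intro j
    induction j with
    | zero => simp [hd]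
    | succ j ih =>
      set x := a (k + j) with hx
      set y := a (k + j + 1) with hy
      set z := a (k + j + 2) with hz
      have hx0 : 0 ≤ x := ha _
      have hine : y ^ 2 ≤ x * z + C := hC (k + j)
      have e : y = x + (y - x) := by ring
      set ee := y - x with hee
      have hee1 : d ≤ ee := ih
      have hee2 : C < ee ^ 2 := by nlinarith
      have hxpos : 0 < x := by
        rcases hx0.lt_or_eq with h | h
        · exact h
        · exfalso
          rw [← h] at hine e
          have : y = ee := by linarith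
          rw [this] at hine
          nlinarith
      have goal : d ≤ z - y := by
        have h3 : x * (z - y) ≥ x * ee := by
          have : y ^ 2 = (x + ee) ^ 2 := by rw [← e]
          have h5 : x * z ≥ (x + ee) ^ 2 - C := by linarith
          have h6 : y = x + ee := e
          rw [h6]
          nlinarith
        have h7 : ee ≤ z - y := le_of_mul_le_mul_left h3 hxpos
        linarith
      have e2 : k + (j + 1) = k + j + 1 := by ring
      have e3 : k + (j + 1) + 1 = k + j + 2 := by ring
      rw [e2] at *
      simpa [e3] using goal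
  have hsum : ∀ j, a k + j * d ≤ a (k + j) := by
    intro j
    induction j with
    | zero => simp
    | succ j ih =>
      have := hinc j
      push_cast
      have e : k + (j + 1) = k + j + 1 := by ring
      rw [e]
      linarith
  have := hsum m
  rw [hper k] at this
  have hm' : (0 : ℝ) < m := by exact_mod_cast hm
  nlinarith [mul_pos hm' hd0]

/-! ### The Lipschitz bound along the edges and the main theorem -/

lemma perm_iterate_id {G : SimpleGraph V} (φ : G ≃g G) :
    ∃ m : ℕ, 0 < m ∧ (φ : V → V)^[m] = id := by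
  let σ : Equiv.Perm V := φ.toEquiv
  refine ⟨orderOf σ, orderOf_pos σ, ?_⟩
  have h1 : (⇑σ)^[orderOf σ] = ⇑(σ ^ orderOf σ) := Equiv.Perm.iterate_eq_pow σ _
  rw [pow_orderOf_eq_one] at h1
  exact h1

/-- For a vertex-transitive graph the numbers `Nc G · y` are Lipschitz along the edges. -/
lemma edge_lip {G : SimpleGraph V} (htrans : ∀ a b : V, ∃ φ : G ≃g G, φ a = b) {F : ℕ}
    (hF : ∀ a b, Nc G a b ≤ F) {p p' : V} (hadj : G.Adj p' p) (y : V) :
    (Nc G p' y : ℝ) ≤ Nc G p y + Real.sqrt (2 * (withHoles G ∅).card * F) := by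
  obtain ⟨φ, hφ⟩ := htrans p' p
  have hp : G.Adj p (φ p) := by
    have := φ.map_adj_iff.2 hadj
    rwa [hφ] at this
  obtain ⟨m, hm, hid⟩ := perm_iterate_id φ
  have key := seq_lip (fun k => (Nc G p ((φ : V → V)^[k] y) : ℝ)) (fun k => by positivity) m hm
    (fun k => by
      rw [Function.iterate_add_apply, hid]
      rfl)
    (2 * (withHoles G ∅).card * F)
    (fun k => by
      have := step_ineq φ (w := (φ : V → V)^[k] y) hp hF
      have e1 : (φ : V → V)^[k + 1] y = φ ((φ : V → V)^[k] y) :=
        Function.iterate_succ_apply' _ _ _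
      have e2 : (φ : V → V)^[k + 2] y = φ (φ ((φ : V → V)^[k] y)) := by
        rw [Function.iterate_succ_apply', e1]
      change (Nc G p ((φ : V → V)^[k + 1] y) : ℝ) ^ 2
        ≤ (Nc G p ((φ : V → V)^[k] y) : ℝ) * (Nc G p ((φ : V → V)^[k + 2] y) : ℝ)
          + 2 * (withHoles G ∅).card * F
      rw [e1, e2]
      exact_mod_cast this) 0
  simp only [Function.iterate_zero, id, zero_add, Function.iterate_one] at key
  have e : Nc G p' y = Nc G p (φ y) := by
    rw [← Nc_map G φ p' y, hφ]
  rw [e]
  exact key

lemma walk_bound {G : SimpleGraph V} (htrans : ∀ a b : V, ∃ φ : G ≃g G, φ a = b) {F : ℕ}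
    (hF : ∀ a b, Nc G a b ≤ F) (y : V) {a b : V} (w : G.Walk a b) :
    (Nc G a y : ℝ) ≤ Nc G b y + w.length * Real.sqrt (2 * (withHoles G ∅).card * F) := by
  induction w with
  | nil => simp
  | cons h q ih =>
    have := edge_lip htrans hF h y
    rw [SimpleGraph.Walk.length_cons]
    push_cast
    linarith

/-- The number of matchings with two prescribed holes is at most `2 D ^ 2 Z`. -/
theorem Nc_bound (G : SimpleGraph V) (hconn : G.Connected)
    (htrans : ∀ a b : V, ∃ φ : G ≃g G, φ a = b) (D : ℕ) (hD : ∀ a b, G.dist a b ≤ D) (a b : V) :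
    Nc G a b ≤ 2 * D ^ 2 * (withHoles G ∅).card := by
  classical
  set Z := (withHoles G ∅).card with hZ
  set F := (univ : Finset (V × V)).sup (fun q => Nc G q.1 q.2) with hFd
  have hF : ∀ a b, Nc G a b ≤ F := fun a b =>
    Finset.le_sup (f := fun q : V × V => Nc G q.1 q.2) (mem_univ (a, b))
  have hdist : ∀ a y, (Nc G a y : ℝ) ≤ D * Real.sqrt (2 * Z * F) := by
    intro a y
    obtain ⟨w, hw⟩ := (hconn a y).exists_walk_length_eq_dist
    have h1 := walk_bound htrans hF y w
    rw [Nc_self, hw] at h1
    have h2 : (G.dist a y : ℝ) ≤ D := by exact_mod_cast hD a y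
    have h3 := mul_le_mul_of_nonneg_right h2 (Real.sqrt_nonneg (2 * Z * F))
    push_cast at h1
    linarith
  by_cases hF0 : F = 0
  · have := hF a b
    omega
  have hne : (univ : Finset (V × V)).Nonempty := by
    by_contra hemp
    rw [not_nonempty_iff_eq_empty] at hemp
    exact hF0 (by rw [hFd, hemp]; simp)
  obtain ⟨q, _, hq⟩ := Finset.exists_mem_eq_sup univ hne (fun q : V × V => Nc G q.1 q.2)
  have hFpos : (0 : ℝ) < F := by
    have : 0 < F := Nat.pos_of_ne_zero hF0
    exact_mod_cast this
  have h4 : (F : ℝ) ≤ D * Real.sqrt (2 * Z * F) := by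
    have := hdist q.1 q.2
    rw [hFd, hq]
    simpa [hFd, hq] using this
  have h5 : (F : ℝ) ^ 2 ≤ D ^ 2 * (2 * Z * F) := by
    have h6 : (0 : ℝ) ≤ 2 * Z * F := by positivity
    have h7 := Real.sq_sqrt h6
    calc (F : ℝ) ^ 2 ≤ (D * Real.sqrt (2 * Z * F)) ^ 2 :=
          pow_le_pow_left₀ hFpos.le h4 2
      _ = D ^ 2 * (2 * Z * F) := by rw [mul_pow, h7]
  have h8 : (F : ℝ) ≤ 2 * D ^ 2 * Z := by
    have : (F : ℝ) * F ≤ (2 * D ^ 2 * Z) * F := by nlinarith
    exact le_of_mul_le_mul_right this hFpos
  have h9 : F ≤ 2 * D ^ 2 * Z := by exact_mod_cast h8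
  exact (hF a b).trans h9

/-- Counting near-perfect matchings by their pair of holes. -/
lemma nearPerfect_le (G : SimpleGraph V) (B : ℕ) (hB : ∀ a b, Nc G a b ≤ B) :
    (nearPerfectMatchings G).card ≤ Fintype.card V ^ 2 * B := by
  classical
  have hsub : nearPerfectMatchings G ⊆ (univ : Finset (V × V)).biUnion
      (fun q => if q.1 = q.2 then ∅ else withHoles G {q.1, q.2}) := by
    intro f hf
    have hf' : IsMatchingInv G f ∧ (holes f).card = 2 := by
      simpa [nearPerfectMatchings] using hf
    obtain ⟨a, b, hab, he⟩ := card_eq_two.1 hf'.2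
    refine mem_biUnion.2 ⟨(a, b), mem_univ _, ?_⟩
    simp only [hab, if_false]
    exact mem_withHoles.2 ⟨hf'.1, he⟩
  refine (card_le_card hsub).trans (card_biUnion_le.trans ?_)
  have h1 : ∀ q ∈ (univ : Finset (V × V)),
      (if q.1 = q.2 then ∅ else withHoles G {q.1, q.2}).card ≤ B := by
    intro q _
    have := hB q.1 q.2
    unfold Nc at this
    by_cases h : q.1 = q.2
    · simp [h]
    · simpa [h] using this
  refine (sum_le_card_nsmul _ _ _ h1).trans ?_
  simp [Fintype.card_prod, sq]

/-- **Vertex-transitive graphs.** In a connected vertex-transitive graph on `n` vertices with all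
distances at most `D`, there are at most `2 n ^ 2 D ^ 2` times as many near-perfect matchings as
perfect matchings; in particular at most `2 n ^ 4` times as many. -/
theorem result (G : SimpleGraph V) (hconn : G.Connected)
    (htrans : ∀ a b : V, ∃ φ : G ≃g G, φ a = b) :
    (∀ D : ℕ, (∀ a b, G.dist a b ≤ D) →
      (nearPerfectMatchings G).card
        ≤ 2 * Fintype.card V ^ 2 * D ^ 2 * (perfectMatchings G).card) ∧
    (nearPerfectMatchings G).card ≤ 2 * Fintype.card V ^ 4 * (perfectMatchings G).card := by
  classical
  have e : perfectMatchings G = withHoles G ∅ := rfl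
  have main : ∀ D : ℕ, (∀ a b, G.dist a b ≤ D) →
      (nearPerfectMatchings G).card
        ≤ 2 * Fintype.card V ^ 2 * D ^ 2 * (perfectMatchings G).card := by
    intro D hD
    have := nearPerfect_le G (2 * D ^ 2 * (withHoles G ∅).card)
      (Nc_bound G hconn htrans D hD)
    rw [e]
    calc (nearPerfectMatchings G).card
        ≤ Fintype.card V ^ 2 * (2 * D ^ 2 * (withHoles G ∅).card) := this
      _ = 2 * Fintype.card V ^ 2 * D ^ 2 * (withHoles G ∅).card := by ring
  refine ⟨main, ?_⟩
  have hD : ∀ a b, G.dist a b ≤ Fintype.card V := by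
    intro a b
    obtain ⟨w⟩ := hconn a b
    have h1 : G.dist a b ≤ (w.toPath : G.Walk a b).length := SimpleGraph.dist_le _
    have h2 := SimpleGraph.Walk.IsPath.length_lt (w.toPath).2
    omega
  have := main _ hD
  calc (nearPerfectMatchings G).card
      ≤ 2 * Fintype.card V ^ 2 * Fintype.card V ^ 2 * (perfectMatchings G).card := this
    _ = 2 * Fintype.card V ^ 4 * (perfectMatchings G).card := by ring

end Vale.Agent.Results.P308.VertexTransitive
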